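import Vale.Agent.N238X.Top

open Vale.Agent.P238 Vale.Agent.P238.H360

/-- (1) The `ℓ₁` distortion `c₁` of the edit distance on binary words of length `n`, with the
exact constant: `log c₁ / √(log n log log n)` tends to `1`.
(2) The same two-sided bound, uniformly, for words over any finite alphabet with at least two
letters and for all words of length at most `n`.
(3) The lower bound holds also for squared Hilbert distances, and already for maps that are
required not to contract only the distances at least `n exp (-ε √(log n log log n))`. -/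
theorem Vale.Agent.Results.P238.A0Exact.result :
    Filter.Tendsto (fun n : ℕ => Real.log (c1 (binED n)) /
      Real.sqrt (Real.log n * Real.log (Real.log n))) Filter.atTop (nhds 1) ∧
    (∀ ε : ℝ, 0 < ε → ∃ n₀ : ℕ, ∀ (α : Type) [Finite α] [Nontrivial α] (n : ℕ), n₀ ≤ n →
      ∀ c : ℝ, c = c1 (wordED α n) ∨ c = c1 (upToED α n) →
        Real.exp ((1 - ε) * Real.sqrt (Real.log n * Real.log (Real.log n))) ≤ c ∧
        c ≤ Real.exp ((1 + ε) * Real.sqrt (Real.log n * Real.log (Real.log n)))) ∧
    ∀ ε : ℝ, 0 < ε → ∃ n₀ : ℕ, ∀ n : ℕ, n₀ ≤ n →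
      ∀ (H : Type) [NormedAddCommGroup H] [InnerProductSpace ℝ H] (F : (Fin n → Bool) → H)
        (D : ℝ),
        (∀ x y, ‖F x - F y‖ ^ 2 ≤ D * binED n x y ∧
          (n * Real.exp (-(ε * Real.sqrt (Real.log n * Real.log (Real.log n)))) ≤ binED n x y →
            binED n x y ≤ ‖F x - F y‖ ^ 2)) →
        Real.exp ((1 - ε) * Real.sqrt (Real.log n * Real.log (Real.log n))) ≤ D :=
  ⟨Vale.Agent.N238X.limit,
    fun _ hε => (Vale.Agent.N238X.window hε).imp fun _ h α _ _ n hn _ hc =>
      let ⟨h1, h2, h3, h4⟩ := h α n hn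
      hc.elim (fun e => e ▸ ⟨h1.trans h2, h3.trans h4⟩)
        fun e => e ▸ ⟨h1.trans (h2.trans h3), h4⟩,
    fun _ hε => Vale.Agent.N238X.coarse hε⟩
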